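import Crest.Agent.X212.Prf6.Tr

-- ▼ part X212/Plb19/Mod
section

/-!
# Row 212, PERF-PLUMB (helper19): the model torus `ℂ / ℤ[i]`

Periodic plateau functions, the stretch `Φ` and the shear `h t` that is the identity near the
punctures `(1 + i) / 2 + ℤ[i]`.
-/

set_option autoImplicit false
set_option linter.unusedSectionVars false
noncomputable section
open Set Filter Topology Function Complex
open scoped ContDiff Manifold

namespace Crest.Agent.X212.Plb19
open Prf6

/-- distance to the integers -/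
def dz (x : ℝ) : ℝ := |x - round x|

theorem dz_le (x : ℝ) (n : ℤ) : dz x ≤ |x - n| := round_le x n

theorem dz_le_abs (x : ℝ) : dz x ≤ |x| := by simpa using dz_le x 0

theorem dz_add_int (x : ℝ) (n : ℤ) : dz (x + n) = dz x := by
  simp only [dz, round_add_intCast]; congr 1; push_cast; ring

theorem dz_neg (x : ℝ) : dz (-x) = dz x := by
  have h : ∀ y : ℝ, dz (-y) ≤ dz y := fun y => (dz_le (-y) (-round y)).trans_eq (by
    rw [dz, ← abs_neg]; congr 1; push_cast; ring)
  exact le_antisymm (h x) (by simpa using h (-x))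

theorem dz_add (x y : ℝ) : dz (x + y) ≤ dz x + dz y :=
  (dz_le (x + y) (round x + round y)).trans ((le_of_eq (by congr 1; push_cast; ring)).trans
    (abs_add_le (x - round x) (y - round y)))

theorem dz_half (x : ℝ) : dz (x + 1 / 2) ≤ 1 / 2 - dz x := by
  have h := abs_le.1 (abs_sub_round x)
  rcases le_total 0 (x - round x) with h1 | h1
  · refine (dz_le _ (round x + 1)).trans ?_
    rw [dz, abs_of_nonneg h1, abs_le]; push_cast; constructor <;> linarith
  · refine (dz_le _ (round x)).trans ?_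
    rw [dz, abs_of_nonpos h1, abs_le]; constructor <;> linarith

theorem dz_cont : Continuous dz := by
  refine (LipschitzWith.of_le_add (f := dz) fun x y => ?_).continuous
  have h1 := dz_add y (x - y)
  have h2 := dz_le_abs (x - y)
  rw [add_sub_cancel] at h1
  rw [Real.dist_eq]; linarith

theorem round_of_abs {x : ℝ} (h : |x| < 1 / 2) : round x = 0 :=
  round_eq_zero_iff.2 ⟨(abs_lt.1 h).1.le, (abs_lt.1 h).2⟩

/-- periodisation -/
def pr (F : ℝ → ℝ) (x : ℝ) : ℝ := F (x - round x)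

theorem pr_add_int (F : ℝ → ℝ) (x : ℝ) (n : ℤ) : pr F (x + n) = pr F x := by
  simp only [pr, round_add_intCast]; congr 1; push_cast; ring

theorem pr_cd {F : ℝ → ℝ} (hF : ContDiff ℝ ∞ F) {e : ℝ} (he : 0 < e)
    (h : ∀ s, |s + 1 / 2| < e → F (s + 1) = F s) : ContDiff ℝ ∞ (pr F) := by
  refine contDiff_iff_contDiffAt.2 fun x => ?_
  have h0 := round_eq_iff.1 (rfl : round x = round x)
  refine (hF.comp (contDiff_id.sub
    (contDiff_const (c := (round x : ℝ))))).contDiffAt.congr_of_eventuallyEq ?_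
  have h1 : ∀ᶠ y : ℝ in 𝓝 x, y < round x + 1 / 2 := gt_mem_nhds h0.2
  have h2 : ∀ᶠ y in 𝓝 x, x - min e 1 < y := lt_mem_nhds (by simp [he])
  filter_upwards [h1, h2] with y h1 h2
  have h3 := min_le_left e 1
  have h4 := min_le_right e 1
  by_cases h5 : round x - 1 / 2 ≤ y
  · simp only [pr, comp_apply, id, round_eq_iff.2 ⟨h5, h1⟩]
  · have h6 : round y = round x - 1 := round_eq_iff.2 (by
      push_cast; constructor <;> linarith [h0.1])
    simp only [pr, comp_apply, id, h6]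
    rw [← h (y - round x) (abs_lt.2 ⟨by linarith [h0.1], by linarith⟩)]
    congr 1; push_cast; ring

/-- smooth step from `0` at `a` to `1` at `b` -/
def stp (a b s : ℝ) : ℝ := Real.smoothTransition ((s - a) / (b - a))

theorem stp_cd (a b : ℝ) : ContDiff ℝ ∞ (stp a b) :=
  Real.smoothTransition.contDiff.comp ((contDiff_id.sub contDiff_const).div_const _)

theorem stp_zero {a b s : ℝ} (h : a < b) (hs : s ≤ a) : stp a b s = 0 :=
  Real.smoothTransition.zero_of_nonpos (div_nonpos_of_nonpos_of_nonneg (by linarith) (by linarith))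

theorem stp_one {a b s : ℝ} (h : a < b) (hs : b ≤ s) : stp a b s = 1 :=
  Real.smoothTransition.one_of_one_le ((one_le_div (by linarith)).2 (by linarith))

theorem stp_nonneg (a b s : ℝ) : 0 ≤ stp a b s := Real.smoothTransition.nonneg _

theorem stp_le (a b s : ℝ) : stp a b s ≤ 1 := Real.smoothTransition.le_one _

theorem stp_mono {a b : ℝ} (h : a < b) : Monotone (stp a b) := fun _ _ e =>
  Real.smoothTransition.monotone (div_le_div_of_nonneg_right (by linarith) (by linarith))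

/-- a smooth staircase -/
theorem exists_stair {c : ℝ} (h0 : 0 < c) (hc : c < 1 / 2) : ∃ m : ℝ → ℝ, ContDiff ℝ ∞ m ∧
    Monotone m ∧ (∀ x, ∀ n : ℤ, m (x + n) = m x + n) ∧ ∀ x, |x| ≤ c → m x = 0 := by
  have hab : c - 1 / 2 < 1 / 2 - c := by linarith
  set σ := stp (c - 1 / 2) (1 / 2 - c)
  let G : ℝ → ℝ := fun s => σ s - s - 1 / 2
  have e : ∀ x, x + pr G (x + 1 / 2) = round (x + 1 / 2) - 1 + σ (x + 1 / 2 - round (x + 1 / 2)) :=
    fun x => by simp only [pr, G]; ring
  refine ⟨fun x => x + pr G (x + 1 / 2), contDiff_id.add ((pr_cd (F := G) (((stp_cd _ _).sub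
    contDiff_id).sub contDiff_const) h0 fun s hs => ?_).comp (contDiff_id.add contDiff_const)),
    fun x y hxy => ?_, fun x n => ?_, fun x hx => ?_⟩
  · have := abs_lt.1 hs
    simp only [G, σ]
    rw [stp_zero hab (s := s) (by linarith), stp_one hab (by linarith)]; ring
  · simp only [e]
    have h1 : round (x + 1 / 2) ≤ round (y + 1 / 2) := by
      rw [round_eq, round_eq]; exact Int.floor_mono (by linarith)
    rcases h1.eq_or_lt with h2 | h2
    · rw [h2]
      have := stp_mono hab (show x + 1 / 2 - round (y + 1 / 2) ≤ y + 1 / 2 - round (y + 1 / 2) by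
        linarith)
      linarith
    · have h3 : (round (x + 1 / 2) : ℝ) + 1 ≤ round (y + 1 / 2) := by exact_mod_cast h2
      linarith [stp_le (c - 1 / 2) (1 / 2 - c) (x + 1 / 2 - round (x + 1 / 2)),
        stp_nonneg (c - 1 / 2) (1 / 2 - c) (y + 1 / 2 - round (y + 1 / 2))]
  · show x + n + pr G (x + n + 1 / 2) = x + pr G (x + 1 / 2) + n
    rw [add_right_comm x n (1 / 2), pr_add_int]; ring
  · have := abs_le.1 hx
    simp only [e]
    rcases le_or_gt 0 x with h1 | h1
    · have h2 : round (x + 1 / 2) = 1 := round_eq_iff.2 (by push_cast; constructor <;> linarith)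
      rw [h2, show σ _ = 0 from stp_zero hab (by push_cast; linarith)]; simp
    · have h2 : round (x + 1 / 2) = 0 := round_eq_iff.2 (by push_cast; constructor <;> linarith)
      rw [h2, show σ _ = 1 from stp_one hab (by push_cast; linarith)]; simp

theorem surj_of_per {φ : ℝ → ℝ} (hc : Continuous φ) (h : ∀ x, ∀ n : ℤ, φ (x + n) = φ x + n) :
    Surjective φ := fun y => by
  refine mem_range_of_exists_le_of_exists_ge hc ⟨0 + (⌊y - φ 0⌋ : ℤ), ?_⟩ ⟨0 + (⌈y - φ 0⌉ : ℤ), ?_⟩
  · rw [h]; linarith [Int.floor_le (y - φ 0)]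
  · rw [h]; linarith [Int.le_ceil (y - φ 0)]

/-- the stretch of the line -/
theorem exists_phi {c a : ℝ} (h0 : 0 < c) (hc : c < 1 / 2) (ha : 0 < a) (ha1 : a ≤ 1) :
    ∃ φ : ℝ → ℝ, ContDiff ℝ ∞ φ ∧ (∀ x, 0 < deriv φ x) ∧ (∀ x, φ (-x) = -φ x) ∧
      (∀ x, ∀ n : ℤ, φ (x + n) = φ x + n) ∧ ∀ x, |x| ≤ c → φ x = a * x := by
  obtain ⟨m, m1, m2, m3, m4⟩ := exists_stair h0 hc
  let μ : ℝ → ℝ := fun x => (m x - m (-x)) / 2
  have μ1 : ContDiff ℝ ∞ μ := (m1.sub (m1.comp contDiff_neg)).div_const _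
  have μ2 : Monotone μ := fun x y h => by
    have := m2 h
    have := m2 (neg_le_neg h)
    simp only [μ]; linarith
  refine ⟨fun x => a * x + (1 - a) * μ x, (contDiff_const.mul contDiff_id).add
    (contDiff_const.mul μ1), fun x => ?_, fun x => by simp only [μ, neg_neg]; ring, fun x n => ?_,
    fun x hx => ?_⟩
  · have h := ((hasDerivAt_id x).const_mul a).add
      ((μ1.differentiable (by simp) x).hasDerivAt.const_mul (1 - a))
    erw [h.deriv]
    have := mul_nonneg (sub_nonneg.2 ha1) (μ2.deriv_nonneg (x := x))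
    linarith
  · have := m3 (-x) (-n)
    simp only [μ, m3, show -(x + n) = -x + ((-n : ℤ) : ℝ) by push_cast; ring]
    push_cast; ring
  · simp [μ, m4 x hx, m4 (-x) (by rwa [abs_neg])]

/-- the stretch of the plane -/
theorem exists_Phi {c a : ℝ} (h0 : 0 < c) (hc : c < 1 / 2) (ha : 0 < a) (ha1 : a ≤ 1) :
    ∃ Φ ∈ G oC, (∀ z, ∀ m n : ℤ, Φ (z + m + n * I) = Φ z + m + n * I) ∧
      (∀ z, Φ (I * z) = I * Φ z) ∧ (∀ z, |z.im| ≤ c → (Φ z).im = a * z.im) ∧
      ∀ z r, 0 ≤ r → r ≤ c → |(Φ z).im| < a * r → |z.im| < r := by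
  obtain ⟨φ, p1, p2, p3, p4, p5⟩ := exists_phi h0 hc ha ha1
  have hm := strictMono_of_deriv_pos p2
  have hb : Bijective φ := ⟨hm.injective, surj_of_per p1.continuous p4⟩
  let F : ℂ → ℂ := fun z => φ z.re + φ z.im * I
  have Fre : ∀ z, (F z).re = φ z.re := fun z => by simp [F]
  have Fim : ∀ z, (F z).im = φ z.im := fun z => by simp [F]
  have hF : Bijective F := by
    refine ⟨fun z w h => Complex.ext (hb.1 ?_) (hb.1 ?_), fun w => ?_⟩
    · rw [← Fre, h, Fre]
    · rw [← Fim, h, Fim]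
    · obtain ⟨x, hx⟩ := hb.2 w.re
      obtain ⟨y, hy⟩ := hb.2 w.im
      exact ⟨⟨x, y⟩, Complex.ext (by rw [Fre, hx]) (by rw [Fim, hy])⟩
  have e : ∀ z, mkP F z = F z := mkP_apply hF
  refine ⟨mkP F, fun z => ?_, fun z m n => ?_, fun z => ?_, fun z hz => ?_, fun z r r0 rc h => ?_⟩
  · rw [show (mkP F : ℂ → ℂ) = F from funext e]
    have c1 : ContDiff ℝ ∞ F := (ofRealCLM.contDiff.comp (p1.comp reCLM.contDiff)).add
      ((ofRealCLM.contDiff.comp (p1.comp imCLM.contDiff)).mul contDiff_const)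
    refine pm_C isOpen_univ (mem_univ z) c1.contDiffOn ?_
    have d : ∀ x, HasDerivAt φ (deriv φ x) x := fun x => (p1.differentiable (by simp) x).hasDerivAt
    have d1 := (ofRealCLM.hasFDerivAt.comp z ((d z.re).comp_hasFDerivAt z reCLM.hasFDerivAt)).add
      ((ofRealCLM.hasFDerivAt.comp z ((d z.im).comp_hasFDerivAt z imCLM.hasFDerivAt)).mul_const I)
    erw [d1.fderiv, det_C]
    simpa using mul_pos (p2 z.re) (p2 z.im)
  · rw [e, e]
    exact Complex.ext (by simp [Fre, p4]) (by simp [Fim, p4])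
  · rw [e, e]
    exact Complex.ext (by simp [Fre, Fim, p3]) (by simp [Fre, Fim])
  · rw [e, Fim, p5 _ hz]
  · rw [e, Fim, abs_lt] at h
    have h1 := p5 r (by rwa [abs_of_nonneg r0])
    exact abs_lt.2 ⟨hm.lt_iff_lt.1 (by rw [p3, h1]; exact h.1), hm.lt_iff_lt.1 (by rw [h1]; exact h.2)⟩

/-- horizontal maps -/
theorem pm_hz {f : ℂ → ℝ} (hf : ContDiff ℝ ∞ f) {z : ℂ} {d : ℝ}
    (hd : HasDerivAt (fun x : ℝ => f (z + x)) d 0) (h : 0 < 1 + d) :
    Pm oC oC (fun w => w + f w) z := by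
  refine pm_C isOpen_univ (mem_univ z) (contDiff_id.add (ofRealCLM.contDiff.comp hf)).contDiffOn ?_
  have d0 := (hf.differentiable (by simp) z).hasFDerivAt
  have d1 := (hasFDerivAt_id z).add (ofRealCLM.hasFDerivAt.comp z d0)
  have d2 : HasDerivAt (fun x : ℝ => f (z + x)) (fderiv ℝ f z 1) 0 := by
    refine HasFDerivAt.comp_hasDerivAt (l := f) (f := fun x : ℝ => z + x) 0 (by simpa using d0) ?_
    simpa using (ofRealCLM.hasDerivAt (x := 0)).const_add z
  erw [d1.fderiv, det_C]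
  simpa [d2.unique hd] using h

/-- the data of the shear -/
structure Shr (c : ℝ) (h : ℝ → Equiv.Perm ℂ) (l : ℝ → ℝ) : Prop where
  lo : 3 / 8 ≤ c
  hi : c < 1 / 2
  cd : ContDiff ℝ ∞ fun p : ℝ × ℂ => h p.1 p.2
  mem : ∀ t, h t ∈ G oC
  per : ∀ t z, ∀ m n : ℤ, h t (z + m + n * I) = h t z + (m + n : ℤ) + n * I
  fix : ∀ t z, c ≤ dz z.re → c ≤ dz z.im → ∃ n : ℤ, h t z = z + n
  lcd : ContDiff ℝ ∞ l
  l0 : ∀ r ≤ -c, l r = 0
  l1 : ∀ r ≥ c, l r = 1
  zero : ∀ z, h 0 z = z + (round z.im : ℤ) + l (z.im - round z.im)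
  one : ∀ z, dz z.re ≤ 1 / 4 ∨ dz z.im ≤ 3 / 8 → h 1 z = z + z.im + 1 / 2

theorem exists_shr : ∃ c h l, Shr c h l := by
  have hq : (1 / 4 : ℝ) < 3 / 8 := by norm_num
  let Q : ℝ → ℝ := fun s => stp (1 / 4) (3 / 8) s + stp (1 / 4) (3 / 8) (-s)
  have P1 : ContDiff ℝ ∞ (pr Q) := pr_cd ((stp_cd _ _).add ((stp_cd _ _).comp contDiff_neg))
    (e := 1 / 8) (by norm_num) fun s hs => by
      have := abs_lt.1 hs
      simp only [Q]
      rw [stp_one hq (s := s + 1) (by linarith), stp_zero hq (s := -(s + 1)) (by linarith),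
        stp_zero hq (s := s) (by linarith), stp_one hq (s := -s) (by linarith), add_comm]
  have P2 : ∀ x, dz x ≤ 1 / 4 → pr Q x = 0 := fun x hx => by
    have := abs_le.1 hx
    simp only [pr, Q]
    rw [stp_zero hq (by linarith), stp_zero hq (by linarith), add_zero]
  have P3 : ∀ x, 3 / 8 ≤ dz x → pr Q x = 1 := fun x hx => by
    simp only [pr, Q]
    rcases le_abs'.1 hx with h | h
    · rw [stp_zero hq (by linarith), stp_one hq (by linarith), zero_add]
    · rw [stp_one hq (by linarith), stp_zero hq (by linarith), add_zero]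
  set P := pr Q
  obtain ⟨C, C0, hC⟩ : ∃ C, 0 < C ∧ ∀ x, |deriv P x| ≤ C := by
    have hp : Periodic (deriv P) 1 := fun x => by
      rw [← deriv_comp_add_const]
      congr 1; ext y; exact_mod_cast pr_add_int Q y 1
    obtain ⟨C, C0, hC⟩ := (hp.isBounded_of_continuous one_ne_zero
      (P1.continuous_deriv (by simp))).exists_pos_norm_le
    exact ⟨C, C0, fun x => hC _ ⟨x, rfl⟩⟩
  obtain ⟨η, η0, η1, η2⟩ : ∃ η : ℝ, 0 < η ∧ η ≤ 1 / 8 ∧ η * C < 1 :=
    ⟨min (1 / 8) (1 / (C + 1)), by positivity, min_le_left _ _,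
      (mul_le_mul_of_nonneg_right (min_le_right _ _) C0.le).trans_lt (by
        rw [div_mul_eq_mul_div, div_lt_one (by linarith)]; linarith)⟩
  have hb : 1 / 2 - η < 1 / 2 - η / 2 := by linarith
  set b := stp (1 / 2 - η) (1 / 2 - η / 2)
  let F : ℝ → ℝ := fun s => (s + 1 / 2) * b (-s) + (s - 1 / 2) * b s
  have F1 : ContDiff ℝ ∞ F := ((contDiff_id.add contDiff_const).mul
    ((stp_cd _ _).comp contDiff_neg)).add ((contDiff_id.sub contDiff_const).mul (stp_cd _ _))
  have F2 : ∀ s ≤ -(1 / 2 - η / 2), F s = s + 1 / 2 := fun s hs => by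
    simp only [F, b]
    rw [stp_one hb (by linarith), stp_zero hb (by linarith)]; ring
  have F3 : ∀ s ≥ 1 / 2 - η / 2, F s = s - 1 / 2 := fun s hs => by
    simp only [F, b]
    rw [stp_zero hb (by linarith), stp_one hb (by linarith)]; ring
  have F4 : ∀ s, |s| ≤ 1 / 2 - η → F s = 0 := fun s hs => by
    have := abs_le.1 hs
    simp only [F, b]
    rw [stp_zero hb (by linarith), stp_zero hb (by linarith)]; ring
  have L1 : ContDiff ℝ ∞ (pr F) := pr_cd F1 (half_pos η0) fun s hs => by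
    have := abs_lt.1 hs
    rw [F3 _ (by linarith), F2 _ (by linarith)]; ring
  have L2 : ∀ y, |pr F y| ≤ η := fun y => by
    have h1 := abs_le.1 (abs_sub_round y)
    rw [pr]
    set s := y - round y
    by_cases h : |s| ≤ 1 / 2 - η
    · rw [F4 s h, abs_zero]; exact η0.le
    · simp only [F, b]
      rcases lt_abs.1 (not_le.1 h) with h | h
      · rw [stp_zero hb (by linarith), mul_zero, zero_add, abs_mul, abs_of_nonneg (stp_nonneg ..)]
        exact (mul_le_of_le_one_right (abs_nonneg _) (stp_le ..)).trans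
          (abs_le.2 ⟨by linarith, by linarith⟩)
      · rw [stp_zero hb (s := s) (by linarith), mul_zero, add_zero, abs_mul,
          abs_of_nonneg (stp_nonneg ..)]
        exact (mul_le_of_le_one_right (abs_nonneg _) (stp_le ..)).trans
          (abs_le.2 ⟨by linarith, by linarith⟩)
  set τ := Real.smoothTransition
  let f : ℝ → ℂ → ℝ := fun t z => z.im + 1 / 2 - pr F z.im * (1 - τ t * (1 - P z.re))
  have f1 : ContDiff ℝ ∞ fun p : ℝ × ℂ => f p.1 p.2 := by
    have a1 : ContDiff ℝ ∞ fun p : ℝ × ℂ => p.2.im := imCLM.contDiff.comp contDiff_snd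
    have a2 : ContDiff ℝ ∞ fun p : ℝ × ℂ => p.2.re := reCLM.contDiff.comp contDiff_snd
    exact (a1.add contDiff_const).sub ((L1.comp a1).mul (contDiff_const.sub
      ((Real.smoothTransition.contDiff.comp contDiff_fst).mul (contDiff_const.sub (P1.comp a2)))))
  have f2 : ∀ t z, HasDerivAt (fun x : ℝ => f t (z + x)) (-(pr F z.im * τ t * deriv P z.re)) 0 := by
    intro t z
    have d0 : HasDerivAt (fun x : ℝ => P (z.re + x)) (deriv P z.re) 0 :=
      HasDerivAt.comp_const_add _ _ (by simpa using (P1.differentiable (by simp) z.re).hasDerivAt)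
    have d1 := ((((d0.const_sub 1).const_mul (τ t)).const_sub 1).const_mul (pr F z.im)).const_sub
      (z.im + 1 / 2)
    refine (d1.congr_deriv (by ring)).congr_of_eventuallyEq (Eventually.of_forall fun x => ?_)
    simp [f]
  have f3 : ∀ t (z : ℂ), 0 < 1 + -(pr F z.im * τ t * deriv P z.re) := fun t z => by
    have h1 : |pr F z.im * τ t * deriv P z.re| ≤ η * 1 * C := by
      rw [abs_mul, abs_mul, abs_of_nonneg (Real.smoothTransition.nonneg t)]
      exact mul_le_mul (mul_le_mul (L2 _) (Real.smoothTransition.le_one t)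
        (Real.smoothTransition.nonneg t) η0.le) (hC _) (abs_nonneg _) (by linarith)
    linarith [le_abs_self (pr F z.im * τ t * deriv P z.re)]
  have f4 : ∀ t z, ∀ m n : ℤ, f t (z + m + n * I) = f t z + n := fun t z m n => by
    simp only [f, add_im, add_re, intCast_im, intCast_re, mul_im, mul_re, I_re, I_im, mul_zero,
      mul_one, add_zero, sub_zero, pr_add_int, P]
    ring
  have hbij : ∀ t, Bijective fun z : ℂ => z + f t z := fun t => by
    let g : ℝ → ℝ → ℝ := fun y x => x + f t (x + y * I)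
    have g1 : ∀ y x, HasDerivAt (g y) (1 + -(pr F y * τ t * deriv P x)) x := fun y x => by
      have d := f2 t (x + y * I)
      have d' := HasDerivAt.comp_sub_const x x (by rw [sub_self]; exact d)
      refine (((hasDerivAt_id x).add d').congr_deriv (by simp)).congr_of_eventuallyEq
        (Eventually.of_forall fun u => ?_)
      simp only [g, Pi.add_apply, id]; congr 2; push_cast; ring
    have g2 : ∀ y, StrictMono (g y) := fun y => strictMono_of_deriv_pos fun x => by
      rw [(g1 y x).deriv]; simpa using f3 t (x + y * I)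
    have g3 : ∀ y, Surjective (g y) := fun y => surj_of_per
      (continuous_iff_continuousAt.2 fun x => (g1 y x).continuousAt) fun x n => by
        have := f4 t (x + y * I) n 0
        simp only [g]
        rw [show ((x + n : ℝ) : ℂ) + y * I = x + y * I + n + (0 : ℤ) * I by push_cast; ring, this]
        push_cast; ring
    refine ⟨fun z w h => ?_, fun w => ?_⟩
    · have h1 : z.im = w.im := by simpa using congrArg im h
      have h2 : g z.im z.re = g z.im w.re := by
        simp only [g]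
        rw [re_add_im, h1, re_add_im]
        simpa using congrArg re h
      exact Complex.ext ((g2 _).injective h2) h1
    · obtain ⟨x, hx⟩ := g3 w.im w.re
      exact ⟨x + w.im * I, Complex.ext (by simpa [g] using hx) (by simp)⟩
  have e : ∀ t z, mkP (fun z : ℂ => z + f t z) z = z + f t z := fun t => mkP_apply (hbij t)
  refine ⟨1 / 2 - η / 2, fun t => mkP fun z : ℂ => z + f t z, fun s => s + 1 / 2 - F s, by linarith,
    by linarith, ?_, fun t z => ?_, fun t z m n => ?_, fun t z h1 h2 => ?_,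
    (contDiff_id.add contDiff_const).sub F1, fun r hr => by rw [F2 r hr]; ring,
    fun r hr => by rw [F3 r hr]; ring, fun z => ?_, fun z hz => ?_⟩
  · simp only [e]
    exact contDiff_snd.add (ofRealCLM.contDiff.comp f1)
  · rw [show (mkP (fun z : ℂ => z + f t z) : ℂ → ℂ) = _ from funext (e t)]
    exact pm_hz (f1.comp (f := fun z : ℂ => (t, z)) (by fun_prop)) (f2 t z) (f3 t z)
  · rw [e, e, f4]; push_cast; ring
  · rw [e]
    have h3 := P3 z.re (by linarith)
    rcases le_abs'.1 h2 with h | h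
    · refine ⟨round z.im, ?_⟩
      have : f t z = round z.im := by simp only [f, h3, pr, F2 _ h]; ring
      rw [this]; simp
    · refine ⟨round z.im + 1, ?_⟩
      have : f t z = round z.im + 1 := by simp only [f, h3, pr, F3 _ h]; ring
      rw [this]; simp
  · rw [e]
    simp only [f, τ, Real.smoothTransition.zero, pr]
    push_cast; ring
  · rw [e]
    have : f 1 z = z.im + 1 / 2 := by
      rcases hz with h | h
      · simp [f, τ, P2 _ h]
      · have : pr F z.im = 0 := F4 _ (le_trans h (by linarith))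
        simp [f, this]
    rw [this]; push_cast; ring

end Crest.Agent.X212.Plb19
end
end

-- ▼ part X212/Plb19/Main

/-!
# Row 212, PERF-PLUMB (helper19): the quarter turn of a one-holed torus
-/

set_option autoImplicit false
set_option linter.unusedSectionVars false
noncomputable section
open Set Filter Topology Function Complex
open scoped ContDiff Manifold

namespace Crest.Agent.X212.Plb19
open Prf6

/-- congruence modulo `ℤ[i]` -/
def La (z w : ℂ) : Prop := ∃ m n : ℤ, w = z + m + n * I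

theorem La.refl (z : ℂ) : La z z := ⟨0, 0, by simp⟩

theorem La.symm {z w : ℂ} : La z w → La w z := fun ⟨m, n, h⟩ =>
  ⟨-m, -n, by rw [h]; push_cast; ring⟩

theorem La.trans {z w u : ℂ} : La z w → La w u → La z u := fun ⟨m, n, h⟩ ⟨m', n', h'⟩ =>
  ⟨m + m', n + n', by rw [h', h]; push_cast; ring⟩

theorem La.mul_I {z w : ℂ} : La z w → La (I * z) (I * w) := fun ⟨m, n, h⟩ =>
  ⟨-n, m, by rw [h]; push_cast; linear_combination (n : ℂ) * I_mul_I⟩

theorem La.re {z w : ℂ} : La z w → dz w.re = dz z.re := fun ⟨m, n, h⟩ => by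
  simp [h, dz_add_int]

theorem La.im {z w : ℂ} : La z w → dz w.im = dz z.im := fun ⟨m, n, h⟩ => by
  simp [h, dz_add_int]

theorem II (z : ℂ) : I * (I * z) = -z := by rw [← mul_assoc, I_mul_I, neg_one_mul]

theorem II' (z : ℂ) : I * (-I * z) = z := by rw [neg_mul, mul_neg, II, neg_neg]

/-- the plane minus closed squares round the punctures -/
def W (c : ℝ) : Set ℂ := {z | dz z.im < c ∨ dz z.re < c}

theorem isOpen_W (c : ℝ) : IsOpen (W c) :=
  (isOpen_lt (dz_cont.comp continuous_im) continuous_const).union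
    (isOpen_lt (dz_cont.comp continuous_re) continuous_const)

theorem La.mem {c : ℝ} {z w : ℂ} (h : La z w) (hz : z ∈ W c) : w ∈ W c := by
  simpa [W, h.re, h.im] using hz

theorem W_mono {c c' : ℝ} (h : c ≤ c') : W c ⊆ W c' := fun _ hz =>
  hz.imp (fun a => a.trans_le h) fun a => a.trans_le h

theorem W_rot {c : ℝ} {z : ℂ} : I * z ∈ W c ↔ z ∈ W c := by simp [W, dz_neg, or_comm]

/-- the compact fundamental piece -/
def L (c : ℝ) : Set ℂ := bx 0 1 ∩ {z | dz z.im ≤ c ∨ dz z.re ≤ c}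

theorem isCompact_L (c : ℝ) : IsCompact (L c) :=
  (isCompact_bx 0 1).inter_right ((isClosed_le (dz_cont.comp continuous_im) continuous_const).union
    (isClosed_le (dz_cont.comp continuous_re) continuous_const))

theorem L_sub {c c' : ℝ} (h : c < c') : L c ⊆ W c' := fun _ hz =>
  hz.2.imp (fun a => a.trans_lt h) fun a => a.trans_lt h

theorem exists_L {c : ℝ} {z : ℂ} (hz : z ∈ W c) : ∃ w ∈ L c, La z w := by
  have h : La z (z + (-⌊z.re⌋ : ℤ) + (-⌊z.im⌋ : ℤ) * I) := ⟨_, _, rfl⟩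
  refine ⟨_, ⟨⟨?_, ?_⟩, (h.mem hz).imp le_of_lt le_of_lt⟩, h⟩
  · simpa [Int.floor_le, add_comm] using (Int.lt_floor_add_one z.re).le
  · simpa [Int.floor_le, add_comm] using (Int.lt_floor_add_one z.im).le

/-- lattice equivariant, and trivial near the punctures -/
structure Ad (c : ℝ) (h : Equiv.Perm ℂ) : Prop where
  eqv : ∀ z w, La z w ↔ La (h z) (h w)
  fix : ∀ z ∉ W c, La z (h z)

theorem Ad.inv {c : ℝ} {h : Equiv.Perm ℂ} (a : Ad c h) : Ad c h⁻¹ :=
  ⟨fun z w => by simpa using (a.eqv (h⁻¹ z) (h⁻¹ w)).symm, fun z hz =>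
    ((a.eqv _ _).2 (by simpa using a.fix z hz)).symm⟩

theorem Ad.maps {c c' : ℝ} {h : Equiv.Perm ℂ} (a : Ad c h) (hc : c ≤ c') {z : ℂ}
    (hz : z ∈ W c') : h z ∈ W c' := by
  by_contra hn
  exact hn (((a.eqv _ _).2 (a.fix _ fun e => hn (W_mono hc e))).mem hz)

theorem Shr.ad {c : ℝ} {h : ℝ → Equiv.Perm ℂ} {l : ℝ → ℝ} (s : Shr c h l) (t : ℝ) : Ad c (h t) := by
  refine ⟨fun z w => ⟨fun ⟨m, n, e⟩ => ⟨m + n, n, by rw [e, s.per]⟩, fun ⟨m, n, e⟩ =>
    ⟨m - n, n, (h t).injective (by rw [e, s.per]; simp)⟩⟩, fun z hz => ?_⟩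
  obtain ⟨n, e⟩ := s.fix t z (not_lt.1 fun a => hz (Or.inr a)) (not_lt.1 fun a => hz (Or.inl a))
  exact ⟨n, 0, by simp [e]⟩

/-- transplant through the chart `Θ` of the punctured torus -/
def T {M : Type*} (Θ : ℂ → M) (c : ℝ) (h : Equiv.Perm ℂ) : Equiv.Perm M :=
  by classical exact mkP fun x => if H : ∃ z ∈ W c, Θ z = x then Θ (h H.choose) else x

variable {M : Type*} [TopologicalSpace M] [ChartedSpace ℂ M] [IsManifold IC ∞ M] [T2Space M]
  {o : Or M} {U : Set M} {c c₁ : ℝ} {A B Θ : ℂ → M}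

/-- two plumbed annuli and the chart of the punctured torus -/
structure Tc (o : Or M) (U : Set M) (c : ℝ) (A B Θ : ℂ → M) : Prop where
  hA : An o A
  hB : An o B
  rA : range A ⊆ U
  rB : range B ⊆ U
  pos : 0 < c
  hi : c < 1 / 2
  only : ∀ z w : ℂ, |z.im| < c → |w.im| < c → A z = B w → La z (I * w)
  a : ∀ z w : ℂ, |z.im| < c → La z w → Θ w = A z
  b : ∀ z w : ℂ, |z.im| < c → La (I * z) w → Θ w = B z

namespace Tc
variable (X : Tc o U c A B Θ)
include X

theorem swap : Tc o U c B (fun z => A (-z)) fun z => Θ (I * z) where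
  hA := X.hB
  hB := X.hA.neg
  rA := X.rB
  rB := by rintro _ ⟨z, rfl⟩; exact X.rA ⟨_, rfl⟩
  pos := X.pos
  hi := X.hi
  only := fun z w hz hw e => by
    have := (X.only (-w) z (by simpa using hw) hz e.symm).mul_I.mul_I.mul_I.symm
    simpa [II] using this
  a := fun z w hz e => X.b _ _ hz e.mul_I
  b := fun z w hz e => X.a _ _ (by simpa using hz) (by simpa [II] using e.mul_I)

omit X in
theorem rep {z : ℂ} (hz : z ∈ W c) :
    (∃ u : ℂ, |u.im| < c ∧ La u z) ∨ ∃ u : ℂ, |u.im| < c ∧ La (I * u) z := by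
  rcases hz with h | h
  · exact Or.inl ⟨z - round z.im * I, by simpa [dz] using h, 0, round z.im, by simp⟩
  · refine Or.inr ⟨-I * (z - round z.re), ?_, round z.re, 0, by rw [II']; simp⟩
    simpa [dz, abs_sub_comm, neg_add_eq_sub] using h

theorem eq {z w : ℂ} (hz : z ∈ W c) (hw : w ∈ W c) : Θ z = Θ w ↔ La z w := by
  refine ⟨fun e => ?_, fun e => ?_⟩
  · rcases rep hz with ⟨u, u1, u2⟩ | ⟨u, u1, u2⟩ <;> rcases rep hw with ⟨v, v1, v2⟩ | ⟨v, v1, v2⟩
    · rw [X.a _ _ u1 u2, X.a _ _ v1 v2] at e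
      obtain ⟨n, rfl⟩ := (X.hA.2 _ _).1 e
      exact u2.symm.trans (La.trans ⟨n, 0, by simp⟩ v2)
    · rw [X.a _ _ u1 u2, X.b _ _ v1 v2] at e
      exact u2.symm.trans ((X.only _ _ u1 v1 e).trans v2)
    · rw [X.b _ _ u1 u2, X.a _ _ v1 v2] at e
      exact u2.symm.trans ((X.only _ _ v1 u1 e.symm).symm.trans v2)
    · rw [X.b _ _ u1 u2, X.b _ _ v1 v2] at e
      obtain ⟨n, rfl⟩ := (X.hB.2 _ _).1 e
      exact u2.symm.trans (La.trans ⟨0, n, by simp; ring⟩ v2)
  · rcases rep hz with ⟨u, u1, u2⟩ | ⟨u, u1, u2⟩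
    · rw [X.a _ _ u1 u2, X.a _ _ u1 (u2.trans e)]
    · rw [X.b _ _ u1 u2, X.b _ _ u1 (u2.trans e)]

theorem sub {z : ℂ} (hz : z ∈ W c) : Θ z ∈ U := by
  rcases rep hz with ⟨u, u1, u2⟩ | ⟨u, u1, u2⟩
  · rw [X.a _ _ u1 u2]; exact X.rA ⟨_, rfl⟩
  · rw [X.b _ _ u1 u2]; exact X.rB ⟨_, rfl⟩

theorem pm' {z : ℂ} (hz : dz z.im < c) : Pm oC o Θ z := by
  refine ((X.hA.1 _).comp (pm_affine one_ne_zero (-(round z.im * I)) z)).congr ?_
  have h : ∀ᶠ w : ℂ in 𝓝 z, |w.im - round z.im| < c :=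
    ContinuousAt.eventually_lt (by fun_prop) continuousAt_const hz
  filter_upwards [h] with w hw
  exact X.a _ _ (by simpa [neg_add_eq_sub] using hw) ⟨0, round z.im, by simp⟩

theorem pm {z : ℂ} (hz : z ∈ W c) : Pm oC o Θ z := by
  rcases hz with h | h
  · exact X.pm' h
  · have h1 := X.swap.pm' (z := 0 + -I * z) (by simpa [dz_neg] using h)
    refine (h1.comp (f := fun w => 0 + -I * w) (pm_affine (neg_ne_zero.2 I_ne_zero) 0 z)).congr
      (Eventually.of_forall fun w => ?_)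
    simp only [comp_apply, zero_add, II']

theorem spec {h : Equiv.Perm ℂ} (a : Ad c₁ h) (hc : c₁ ≤ c) :
    (∀ z ∈ W c, T Θ c h (Θ z) = Θ (h z)) ∧ ∀ x ∉ Θ '' W c, T Θ c h x = x := by
  classical
  let F : Equiv.Perm ℂ → M → M := fun h x =>
    if H : ∃ z ∈ W c, Θ z = x then Θ (h H.choose) else x
  have h1 : ∀ h, Ad c₁ h → ∀ z ∈ W c, F h (Θ z) = Θ (h z) := fun h a z hz => by
    have H : ∃ w ∈ W c, Θ w = Θ z := ⟨z, hz, rfl⟩
    exact (dif_pos H).trans ((X.eq (a.maps hc H.choose_spec.1) (a.maps hc hz)).2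
      ((a.eqv _ _).1 ((X.eq H.choose_spec.1 hz).1 H.choose_spec.2)))
  have h2 : ∀ h, ∀ x ∉ Θ '' W c, F h x = x := fun h x hx => dif_neg hx
  have h3 : ∀ h, Ad c₁ h → LeftInverse (F h⁻¹) (F h) := fun h a x => by
    by_cases hx : x ∈ Θ '' W c
    · obtain ⟨z, hz, rfl⟩ := hx
      rw [h1 h a z hz, h1 _ a.inv _ (a.maps hc hz)]; simp
    · rw [h2 h x hx, h2 _ x hx]
  have hb : Bijective (F h) := ⟨(h3 h a).injective, (by simpa using h3 _ a.inv :
    LeftInverse (F h) (F h⁻¹)).surjective⟩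
  exact ⟨fun z hz => (mkP_apply hb _).trans (h1 h a z hz),
    fun x hx => (mkP_apply hb _).trans (h2 h x hx)⟩

theorem fix {h : Equiv.Perm ℂ} (a : Ad c₁ h) (hc : c₁ < c) {x : M} (hx : x ∉ Θ '' L c₁) :
    T Θ c h x = x := by
  by_cases hr : x ∈ Θ '' W c
  · obtain ⟨z, hz, rfl⟩ := hr
    rw [(X.spec a hc.le).1 z hz, eq_comm, X.eq hz (a.maps hc.le hz)]
    refine a.fix z fun h1 => ?_
    obtain ⟨w, hw, e⟩ := exists_L h1
    exact hx ⟨w, hw, ((X.eq hz (L_sub hc hw)).2 e).symm⟩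
  · exact (X.spec a hc.le).2 x hr

theorem closed (hc : c₁ < c) : IsClosed (Θ '' L c₁) :=
  ((isCompact_L c₁).image_of_continuousOn fun _ hz =>
    (X.pm (L_sub hc hz)).1.contMDiffAt.continuousAt.continuousWithinAt).isClosed

theorem near {h : Equiv.Perm ℂ} (a : Ad c₁ h) (hc : c₁ < c) : Near (T Θ c h) Uᶜ :=
  near_of_closed (X.closed hc) (disjoint_compl_right_iff_subset.2 (by
    rintro _ ⟨z, hz, rfl⟩; exact X.sub (L_sub hc hz))) fun _ hx => X.fix a hc hx

theorem mem {h : Equiv.Perm ℂ} (a : Ad c₁ h) (hc : c₁ < c) (hh : h ∈ G oC) : T Θ c h ∈ G o := by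
  intro x
  by_cases hx : x ∈ Θ '' W c
  · obtain ⟨z, hz, rfl⟩ := hx
    refine (X.pm hz).of_comp (((X.pm (a.maps hc.le hz)).comp (hh z)).congr ?_)
    filter_upwards [(isOpen_W c).mem_nhds hz] with w hw using (X.spec a hc.le).1 w hw
  · refine (pm_id o x).congr ?_
    filter_upwards [(X.closed hc).isOpen_compl.mem_nhds fun h => hx (image_mono (L_sub hc) h)]
      with y hy using X.fix a hc hy

theorem sm {κ : ℝ → Equiv.Perm ℂ} (hκ : ContDiff ℝ ∞ fun p : ℝ × ℂ => κ p.1 p.2)
    (a : ∀ t, Ad c₁ (κ t)) (hc : c₁ < c) :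
    ContMDiff (IR.prod IC) IC ∞ fun p : ℝ × M => T Θ c (κ p.1) p.2 := by
  rintro ⟨t, x⟩
  by_cases hx : x ∈ Θ '' W c
  · obtain ⟨z, hz, rfl⟩ := hx
    have h1 : IsLocalDiffeomorphAt (IR.prod IC) (IR.prod IC) ∞ (Prod.map id Θ) (t, z) :=
      Glue52.ld_prodMap_at ((Diffeomorph.refl IR ℝ ∞).isLocalDiffeomorph t) (X.pm hz).1
    refine Cyl58.contMDiffAt_of_comp h1 ?_
    refine ((X.pm ((a t).maps hc.le hz)).1.contMDiffAt.comp (f := fun p : ℝ × ℂ => κ p.1 p.2)
      (t, z) (cm_of_cd hκ (t, z))).congr_of_eventuallyEq ?_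
    filter_upwards [continuous_snd.continuousAt.eventually ((isOpen_W c).mem_nhds hz)] with p hp
    exact (X.spec (a p.1) hc.le).1 _ hp
  · refine contMDiffAt_snd.congr_of_eventuallyEq ?_
    filter_upwards [continuous_snd.continuousAt.eventually ((X.closed hc).isOpen_compl.mem_nhds
      fun h => hx (image_mono (L_sub hc) h))] with p hp
    exact X.fix (a p.1) hc hp

/-- the core of `A` does not separate -/
theorem ns (hM : IsPreconnected (univ : Set M)) : NS A := by
  have cA := cont_of_pm X.hA.1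
  have p := X.pos
  have q := X.hi
  have hS : IsPreconnected (A '' {z | 0 < z.im} ∪ (fun t : ℝ => B t) '' Ioo 0 1 ∪
      A '' {z | z.im < 0}) := by
    have h2 : IsPreconnected ((fun t : ℝ => B t) '' Ioo 0 1) :=
      isPreconnected_Ioo.image _ ((cont_of_pm X.hB.1).comp continuous_ofReal).continuousOn
    have e : ∀ (t s : ℝ), |s| < c → La (I * s) (I * t) → A (I * s) = B t := fun t s hs h => by
      rw [← X.a _ _ (by simpa using hs) h, X.b t _ (by simpa using p) (La.refl _)]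
    refine IsPreconnected.union (B (1 - c / 2 : ℝ)) (Or.inr ⟨_, ⟨by linarith, by linarith⟩, rfl⟩)
      ⟨I * (-(c / 2) : ℝ), by simpa using p, e _ _ (abs_lt.2 ⟨by linarith, by linarith⟩)
        ⟨0, 1, by push_cast; ring⟩⟩
      (IsPreconnected.union (B (c / 2 : ℝ)) ⟨I * (c / 2 : ℝ), by simpa using p,
        e _ _ (abs_lt.2 ⟨by linarith, by linarith⟩) (La.refl _)⟩
        ⟨_, ⟨by linarith, by linarith⟩, rfl⟩
        ((convex_halfSpace_im_gt 0).isPreconnected.image _ cA.continuousOn) h2)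
      ((convex_halfSpace_im_lt 0).isPreconnected.image _ cA.continuousOn)
  set S := A '' {z | 0 < z.im} ∪ (fun t : ℝ => B t) '' Ioo 0 1 ∪ A '' {z | z.im < 0}
  have hSZ : S ⊆ (core A)ᶜ := by
    rintro _ ((⟨z, hz, rfl⟩ | ⟨t, ht, rfl⟩) | ⟨z, hz, rfl⟩) h
    · exact (ne_of_gt hz) (X.hA.mem_core.1 h)
    · obtain ⟨s, hs⟩ := h
      obtain ⟨m, n, e⟩ := X.only s t (by simpa using p) (by simpa using p) hs
      have h1 : t = n := by simpa using congrArg im e
      obtain ⟨h2, h3⟩ := ht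
      rw [h1] at h2 h3
      have h4 : 0 < n := by exact_mod_cast h2
      have h5 : n < 1 := by exact_mod_cast h3
      omega
    · exact (ne_of_lt hz) (X.hA.mem_core.1 h)
  have hV : ∀ z, A z ∉ core A → A z ∈ S := fun z hz => by
    rcases lt_trichotomy z.im 0 with h | h | h
    exacts [Or.inr ⟨z, h, rfl⟩, (hz (mem_core h)).elim, Or.inl (Or.inl ⟨z, h, rfl⟩)]
  have hO : IsOpen (core A)ᶜ := X.hA.isCompact_core.isClosed.isOpen_compl
  have hR : IsOpen (range A) := (isOpenMap_of_pm X.hA.1).isOpen_range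
  have key : ∀ u v : Set M, IsOpen u → IsOpen v → (core A)ᶜ ⊆ u ∪ v → (core A)ᶜ ∩ (u ∩ v) = ∅ →
      S ⊆ u → (core A)ᶜ ⊆ u := fun u v hu hv h1 h2 h3 x hx => by
    by_contra hn
    obtain ⟨y, -, y1, y2, y3⟩ := hM (u ∩ (core A)ᶜ ∪ range A) (v ∩ (core A)ᶜ)
      ((hu.inter hO).union hR) (hv.inter hO) (fun y _ => by
        by_cases hy : y ∈ core A
        · exact Or.inl (Or.inr (core_subset A hy))
        · exact (h1 hy).imp (fun a => Or.inl ⟨a, hy⟩) fun a => ⟨a, hy⟩)
      ⟨A 0, trivial, Or.inr ⟨0, rfl⟩⟩ ⟨x, trivial, (h1 hx).resolve_left hn, hx⟩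
    refine (h2.subset ⟨y3, ?_, y2⟩ : y ∈ (∅ : Set M))
    rcases y1 with y1 | ⟨z, rfl⟩
    exacts [y1.1, h3 (hV z y3)]
  refine isPreconnected_iff_subset_of_disjoint.2 fun u v hu hv h1 h2 => ?_
  refine (isPreconnected_iff_subset_of_disjoint.1 hS u v hu hv (hSZ.trans h1)
    (eq_empty_of_subset_empty ((inter_subset_inter_left _ hSZ).trans h2.subset))).imp
    (key u v hu hv h1 h2) (key v u hv hu (by rwa [union_comm]) (by rwa [inter_comm v]))

/-- the transplanted shear is a twist up to isotopy -/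
theorem mem_K (hM : IsPreconnected (univ : Set M)) {h : ℝ → Equiv.Perm ℂ} {l : ℝ → ℝ}
    (s : Shr c₁ h l) (hc : c₁ < c) (tw : TW o) : T Θ c (h 1) ∈ K o := by
  have hm : ∀ t, T Θ c (h t) ∈ G o := fun t => X.mem (s.ad t) hc (s.mem t)
  have li : ∀ r, c₁ ≤ |r| → ∃ n : ℤ, l r = n := fun r hr =>
    (le_abs'.1 hr).elim (fun a => ⟨0, by simp [s.l0 r a]⟩) fun a => ⟨1, by simp [s.l1 r a]⟩
  have out : ∀ x, (∀ z : ℂ, |z.im| < c → A z ≠ x) → T Θ c (h 0) x = x := fun x hx => by
    by_cases hr : x ∈ Θ '' W c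
    · obtain ⟨z, hz, rfl⟩ := hr
      rw [(X.spec (s.ad 0) hc.le).1 z hz, eq_comm, X.eq hz ((s.ad 0).maps hc.le hz)]
      have h1 : c ≤ dz z.im := not_lt.1 fun a => hx (z - round z.im * I) (by simpa [dz] using a)
        (X.a _ _ (by simpa [dz] using a) ⟨0, round z.im, by simp⟩).symm
      obtain ⟨n, e⟩ := li _ (hc.le.trans h1)
      exact ⟨round z.im + n, 0, by rw [s.zero, e]; simp; ring⟩
    · exact (X.spec (s.ad 0) hc.le).2 x hr
  have e : tr A (sh l) = T Θ c (h 0) := by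
    refine (X.hA.wd_sh l).ext (fun z => ?_) fun x hx => out x fun z _ e => hx ⟨z, e⟩
    by_cases hz : |z.im| < c
    · rw [← X.a z z hz (La.refl _), (X.spec (s.ad 0) hc.le).1 z (Or.inl ((dz_le_abs _).trans_lt hz)),
        s.zero, round_of_abs (hz.trans X.hi)]
      exact X.a _ _ (by simpa using hz) ⟨0, 0, by simp⟩
    · obtain ⟨n, e⟩ := li _ (hc.le.trans (not_lt.1 hz))
      rw [out _ fun w hw e => hz (X.hA.im_eq e ▸ hw), sh_apply, e, ofReal_intCast, X.hA.per]
  rw [← cls_eq_one (hm 1), cls_path (X.sm s.cd s.ad hc) hm 1 0, ← e,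
    X.hA.cls_sh s.lcd (a := -c₁) (b := c₁) (m := 0) (n := 1) (fun r hr => by simp [s.l0 r hr.le])
      (fun r hr => by simp [s.l1 r hr.le]), cls_K (tw A X.hA (X.ns hM)), one_zpow]

/-- the quarter turn in the stretched charts -/
theorem turn (hM : IsPreconnected (univ : Set M)) {h : ℝ → Equiv.Perm ℂ} {l : ℝ → ℝ}
    (s : Shr c₁ h l) (hc : c₁ < c) : ∃ k ∈ G o, Near k Uᶜ ∧ (TW o → k ∈ K o) ∧
      ∀ z : ℂ, |z.im| < 1 / 8 → k (A z) = B z ∧ k (B z) = A (-z) := by
  have a := s.ad 1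
  have lo := s.lo
  set k₁ := T Θ c (h 1)
  set k₂ := T (fun z => Θ (I * z)) c (h 1)
  have key : ∀ z : ℂ, dz z.im < 1 / 8 ∨ dz z.re < 1 / 8 → (k₁ * k₂ * k₁) (Θ z) = Θ (-I * z) := by
    intro z hz
    have w0 : z ∈ W c := W_mono (by linarith) hz
    have e1 : h 1 z = z + z.im + 1 / 2 := s.one z (hz.elim (fun a => Or.inr (by linarith))
      fun a => Or.inl (by linarith))
    have w1 : -I * h 1 z ∈ W c := W_rot.1 (by rw [II']; exact a.maps hc.le w0)
    have r1 : (h 1 z).re = z.re + z.im + 1 / 2 := by simp [e1]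
    have i1 : (h 1 z).im = z.im := by simp [e1]
    have t1 : dz (z.re + z.im + 1 / 2) ≤ 1 / 2 - dz z.im + dz z.re := by
      have := dz_add (z.im + 1 / 2) z.re
      rw [show z.im + 1 / 2 + z.re = z.re + z.im + 1 / 2 by ring] at this
      linarith [dz_half z.im]
    have t2 : dz (z.re + z.im + 1 / 2) ≤ 1 / 2 - dz z.re + dz z.im := by
      have := dz_add (z.re + 1 / 2) z.im
      rw [add_right_comm] at this
      linarith [dz_half z.re]
    have e2 : I * h 1 (-I * h 1 z) = ⟨z.re + z.im + 1 / 2, -z.re⟩ := by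
      rw [s.one _ ?_]
      · exact Complex.ext (by simp [r1]) (by simp [r1, i1]; ring)
      · simp only [neg_mul, neg_re, mul_re, I_re, I_im, neg_im, mul_im, zero_mul, one_mul, zero_sub,
          neg_neg, zero_add, dz_neg, r1, i1]
        by_cases h1 : dz z.im ≤ 1 / 4
        · exact Or.inl h1
        · exact Or.inr (by rcases hz with h2 | h2 <;> linarith)
    have w2 : I * h 1 (-I * h 1 z) ∈ W c := W_rot.2 (a.maps hc.le w1)
    have e3 : h 1 (I * h 1 (-I * h 1 z)) = -I * z + 1 := by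
      rw [e2, s.one _ ?_]
      · exact Complex.ext (by simp; ring) (by simp)
      · simp only [dz_neg]
        by_cases h1 : dz z.re ≤ 3 / 8
        · exact Or.inr h1
        · exact Or.inl (by rcases hz with h2 | h2 <;> linarith)
    have s2 := (X.swap.spec a hc.le).1 _ w1
    rw [II'] at s2
    show k₁ (k₂ (k₁ (Θ z))) = _
    rw [(X.spec a hc.le).1 z w0, s2, (X.spec a hc.le).1 _ w2, X.eq (a.maps hc.le w2)
      (W_rot.1 (by rw [II']; exact w0)), e3]
    exact ⟨-1, 0, by simp⟩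
  have m1 := X.mem a hc (s.mem 1)
  have m2 := X.swap.mem a hc (s.mem 1)
  refine ⟨(k₁ * k₂ * k₁)⁻¹, inv_mem (mul_mem (mul_mem m1 m2) m1),
    (((X.near a hc).mul (X.swap.near a hc)).mul (X.near a hc)).inv, fun tw => inv_mem (mul_mem
      (mul_mem (X.mem_K hM s hc tw) (X.swap.mem_K hM s hc tw)) (X.mem_K hM s hc tw)),
    fun z hz => ?_⟩
  have hz' : |z.im| < c := by linarith
  have d := (dz_le_abs _).trans_lt hz
  rw [Equiv.Perm.inv_eq_iff_eq, Equiv.Perm.inv_eq_iff_eq, ← X.b z _ hz' (La.refl _),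
    ← X.a z _ hz' (La.refl _), ← X.a (-z) _ (by simpa using hz') (La.refl _),
    key (I * z) (Or.inr (by simpa [dz_neg] using d)), key (-z) (Or.inl (by simpa [dz_neg] using d))]
  simp [II]

end Tc

/-- the chart of the punctured torus -/
theorem exists_tc (hA : An o A) (hB : An o B) (rA : range A ⊆ U) (rB : range B ⊆ U) (p : 0 < c)
    (q : c < 1 / 2) (box : ∀ z : ℂ, |z.re| < c → |z.im| < c → B z = A (I * z))
    (only : ∀ z w : ℂ, |z.im| < c → |w.im| < c → A z = B w → La z (I * w)) :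
    ∃ Θ, Tc o U c A B Θ := by
  refine ⟨fun z => if dz z.im < c then A (z - round z.im * I) else B (-I * (z - round z.re)),
    hA, hB, rA, rB, p, q, only, ?_, ?_⟩
  · rintro z _ hz ⟨m, n, rfl⟩
    have h1 : (z + m + n * I).im = z.im + n := by simp
    rw [h1, dz_add_int, if_pos ((dz_le_abs _).trans_lt hz), round_add_intCast,
      round_of_abs (hz.trans q), ← hA.per z m]
    congr 1; push_cast; ring
  · rintro z _ hz ⟨m, n, rfl⟩
    have h1 : (I * z + m + n * I).im = z.re + n := by simp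
    have h2 : (I * z + m + n * I).re = -z.im + m := by simp
    rw [h1, h2, dz_add_int, round_add_intCast, round_add_intCast,
      round_of_abs (x := -z.im) (by rw [abs_neg]; exact hz.trans q)]
    split_ifs with h
    · rw [← hB.per z (-round z.re), box _ (by simpa [dz, sub_eq_add_neg] using h)
        (by simpa using hz), ← hA.per (I * _) m]
      congr 1; push_cast; ring
    · rw [← hB.per z n]
      congr 1; push_cast; linear_combination (-z - n) * I_mul_I

/-- PLUMB -/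
theorem plumb : Plumb := by
  intro X U A B δ hM N
  obtain ⟨c₁, h, l, s⟩ := exists_shr
  have lo := s.lo
  have hi := s.hi
  obtain ⟨c, c1, c2⟩ := exists_between hi
  have c0 : 0 < c := by linarith
  obtain ⟨a, a0, a1, a2⟩ : ∃ a : ℝ, 0 < a ∧ a ≤ 1 ∧ a ≤ δ :=
    ⟨min 1 δ, lt_min one_pos N.pos, min_le_left _ _, min_le_right _ _⟩
  obtain ⟨Φ, P1, P2, P3, P4, P5⟩ := exists_Phi c0 c2 a0 a1
  have P6 : ∀ z, ∀ n : ℤ, Φ (z + n) = Φ z + n := fun z n => by simpa using P2 z n 0
  have an : ∀ D, An X.o D → An X.o (D ∘ Φ) := fun D hD => ⟨fun z => (hD.1 _).comp (P1 z),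
    fun z w => (hD.wd P6 z w).symm.trans (hD.2 z w)⟩
  have sm : ∀ z : ℂ, |z.im| < c → |(Φ z).im| < δ := fun z hz => by
    rw [P4 z hz.le, abs_mul, abs_of_pos a0]
    nlinarith [abs_nonneg z.im]
  have box : ∀ z : ℂ, |z.re| < δ → |z.im| < δ → B z = A (I * z) := fun z h1 h2 => by
    simpa using N.box 0 z h1 h2
  obtain ⟨Θ, Y⟩ := exists_tc (an A N.hA) (an B N.hB) ((range_comp_subset_range _ _).trans N.rA)
    ((range_comp_subset_range _ _).trans N.rB) c0 c2 (fun z h1 h2 => by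
      have := sm (I * z) (by simpa using h1)
      rw [P3] at this
      rw [comp_apply, comp_apply, P3, box _ (by simpa using this) (sm z h2)])
    fun z w hz hw e => by
      obtain ⟨-, m, hm⟩ := N.only _ _ (sm z hz) (sm w hw) e
      rw [comp_apply, comp_apply, ← N.hB.per (Φ w) (-m),
        box _ (by simpa [sub_eq_add_neg] using hm) (by simpa using sm w hw), N.hA.2] at e
      obtain ⟨n, e⟩ := e
      exact ⟨n, m, Φ.injective (by rw [P3, P2]; push_cast at e; linear_combination e)⟩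
  obtain ⟨k, k1, k2, k3, k4⟩ := Y.turn hM s c1
  refine ⟨k, k1, k2, k3, a * (1 / 8), by positivity, fun z hz => ?_⟩
  obtain ⟨w, rfl⟩ := Φ.surjective z
  have := k4 w (P5 w _ (by norm_num) (by linarith) hz)
  rwa [comp_apply, comp_apply, comp_apply, ← II, P3, P3, II] at this

end Crest.Agent.X212.Plb19
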